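import Crest.Agent.X212.Hd28.Exs
import Crest.Agent.X212.Add46.Cut
import Crest.Agent.X212.Hp13.Cmb
import Crest.Agent.X212.G75.Dat

/-!
# Row 212, HD (helper28): the leaf HW
-/

set_option autoImplicit false
set_option linter.unusedSectionVars false
noncomputable section
open Set Function Filter Topology
open scoped ContDiff Manifold

namespace Crest.Agent.X212.Hd28
open An M Nd18 Pj41 Rf65 Add46 Ink3

variable {κ lam : Type} [Fintype κ] [Fintype lam] [DecidableEq lam]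

section job
variable {X : Mf 4} {A : Type} [Fintype A] {M : Mark X A κ} {W : World M} {N : ML M lam}

/-- **the trivial job** -/
@[reducible] def tJ (S : XG Empty N) (Λ : Lns W N) (m : M.Cl) (p : Prm A) :
    Job Empty Λ Empty Empty 0 0 :=
  ⟨m, ∅, Empty.elim, fun _ => p, 0, Empty.elim, Empty.elim, Empty.elim, Empty.elim, (·.elim),
    Empty.elim, S.xs, S.g, 0, S.K Λ m⟩

theorem tJ_ok (S : XG Empty N) (Λ : Lns W N) (m : M.Cl) (p : Prm A) : (tJ S Λ m p).OK :=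
  ⟨nofun, nofun, nofun, contDiff_const, nofun, nofun, ⟨0, one_pos, nofun⟩, nofun, nofun, nofun, nofun,
    nofun, nofun, nofun, nofun, S.ok, S.iso, fun _ => contDiff_const, fun _ _ h => (h rfl).elim,
    S.isNk Λ m⟩

theorem p1_br (c : M.Cl) (u : ℝ) : (u, c.1.indicator 1) ∈ M.Br c.1 :=
  ⟨⟨fun a => by by_cases h : a ∈ c.1 <;> simp [h], c.2.mono support_indicator_subset⟩,
    fun _ h => indicator_of_mem h _⟩

theorem p1_O (c : M.Cl) (u : ℝ) : (u, c.1.indicator 1) ∈ M.O c.1 := fun _ h =>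
  (indicator_of_notMem h.1 _).trans_lt one_pos

/-- the base point of the trivial job -/
@[reducible] def tB (S : XG Empty N) (Λ : Lns W N) (m c : M.Cl) (u : ℝ) :
    Bp (tJ S Λ m (u, c.1.indicator 1)) c := ⟨0, p1_br c u, p1_O c u⟩

variable {Λ : Lns W N} {Wi A' H : Type} [Fintype A'] [DecidableEq A'] [Fintype H] {r n : ℕ}
  {J : Job Wi Λ A' H r n} {c d : M.Cl} (b : Bp J c) {a : A} (ha : a ∈ cylW c)

/-- a piece with one end -/
abbrev uB (ρ : Reg A) (e : Bool) : BG κ (lam ⊕ lam) (W.Z c) :=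
  (jE b).bg (W.un c {ρ}) fun _ : Unit => (⟨a, ha⟩, e)

variable (hJ : J.OK) (h1 : cylW c ⊆ {a})
include hJ h1

theorem uB_ok {ρ : Reg A} {e : Bool} (hρ : M.sys.Piece c.1 ρ) (re : ρ a = some e) (f : Bool) :
    (uB b ha ρ e).OK (spO f (W.un c {ρ})) :=
  have o := jS_ok (b := b) hJ
  have k := o.ok hρ f
  (jE_ok hJ b).ok k.cl k.cl' k.sub ⟨fun _ _ _ => rfl, fun _ => (o.ls hρ).sub (toE ha re),
    fun i hi => (o.ls hρ).off i fun ⟨j, hj⟩ => hi ⟨(), hj ▸ Prod.ext (Subtype.ext (h1 j.1.1.2).symm)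
      (Option.some.inj (re.symm.trans ((congrArg ρ (h1 j.1.1.2)).symm.trans (EdP.eq j))))⟩⟩

variable (hW : W.Nrm) (hΛ : Λ.Nrm) (hm : a ∈ J.m.1) (hc : c.1 = insert a d.1)
  (hd : ∀ x ∈ d.1, M.pin x)
include hW hΛ hm hc hd

theorem clo1 {π : Reg A} {ρ : Bool → Reg A} (hπ : M.sys.Piece d.1 π) (hi : a ∈ M.sys.inn π)
    (k1 : ∀ e, M.sys.Piece c.1 (ρ e) ∧ ρ e a = some e ∧
      M.sys.U (ρ e) = M.sys.U π ∩ (M.sys.w a).sd e)
    (k2 : ∀ a' e', a' ≠ a → (π a' = some e' ↔ ∃ e, ρ e a' = some e'))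
    (k3 : ∀ a', a' ≠ a → ρ false a' = none ∨ ρ true a' = none) :
    Clo (jX J a) (uB b ha (ρ false) false) (uB b ha (ρ true) true) := fun σ => by
  classical
  have nd : a ∉ d.1 := fun k => ha.2 (hd a k)
  have u : M.Up d c := ⟨hc ▸ subset_insert _ _, fun x h p =>
    (hc.le h).resolve_left fun e => ha.2 (e ▸ p)⟩
  have hm' : cylW c ⊆ J.m.1 := h1.trans (singleton_subset_iff.2 hm)
  obtain ⟨t, l1, l2⟩ := ((tendsto_nl.eventually (eventually_ge_atTop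
    (max σ 1 + max σ 1))).and (Ico_mem_nhdsLT one_half_lt_one)).exists
  obtain ⟨s, o⟩ := exists_stg (b := b) (τ := fun x => if x = a then t else 1) hJ hm' u
    (fun x k => if_neg fun e : x = a => nd (e ▸ k))
    fun x k => by rwa [if_pos ((hc.le k.1).resolve_right k.2)]
  have S := fun e => Sid.mk (s := s) hJ hW hΛ hm' o (jS_ok (b := b) hJ) u ha ha.1 hπ (k1 e).1 hi
    (k1 e).2.1 ((k1 e).2.2.le.trans inter_subset_left) (fun x e' k k' => (k2 x e' k).2 ⟨e, k'⟩)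
    fun x k => (k.2 k.1).elim
  have T : Two s _ _ _ _ _ π _ _ a (max σ 1) (nl t - max σ 1) := ⟨S false, S true, (k1 _).2.2.ge,
    (k1 _).2.2.ge, fun x e k => Bool.exists_bool.1 ((k2 x e (by rintro rfl; simp [hi.1] at k)).1 k),
    k3, le_max_right _ _, by linarith [le_max_right σ 1], by simp⟩
  have cp := Cyl58.caps_compact W.toCaps hd
  have em : IsEmpty (s.bg π).A := ⟨fun i => i.1.1.2.2 (hd _ i.1.1.2.1)⟩
  have : IsEmpty {a : Unit // a ≠ ()} := ⟨fun a => a.2 rfl⟩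
  let g := T.gc
  exact ⟨_, cp, s.bg π, ⟨⟨g.p₃.φ, g.p₃.U, g.p₃.v, g.p₃.g, g.p₃.sub, g.p₃.sub'⟩,
    ⟨g.p₄.φ, g.p₄.U, g.p₄.v, g.p₄.g, g.p₄.sub, g.p₄.sub'⟩, (), (), g.K₃, g.K₄, g.s₃, g.s₄,
    Equiv.equivOfIsEmpty _ _, rfl, rfl, g.J₃, g.J₄, g.cov, g.t₃, g.t₄, g.band, g.jj, isEmptyElim⟩,
    em, le_max_left _ _, (le_max_left _ _).trans (le_sub_iff_add_le.2 l1), fun f =>
      have k := T.gc_sp f
      ⟨k.o₁, uB_ok b ha hJ h1 (k1 _).1 (k1 _).2.1 f, uB_ok b ha hJ h1 (k1 _).1 (k1 _).2.1 f, k.p₃,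
        k.p₄, k.f₃, k.f₄⟩, exm (W.Z d).dim o.eb.B o.eb.G⟩

theorem std1 {ρ : Reg A} {e : Bool} (hρ : M.sys.Piece c.1 ρ) (re : ρ a = some e) {β : (jX J a).C}
    (hβ : (jX J a).D.Adm β) : ∃ x, (uB b ha ρ e).Std x fun _ => β := by
  have u : M.Up d c := ⟨hc ▸ subset_insert _ _, fun x h p =>
    (hc.le h).resolve_left fun e => ha.2 (e ▸ p)⟩
  have cp := Cyl58.caps_compact W.toCaps hd
  obtain ⟨m, k⟩ := exists_md (W.Z d).dim (Λ.B_ok J.m d)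
  have k' := cmM_ok (W.up_oe u).contMDiff k
  rw [← hΛ.B hW u fun x h => (hc.le h.1).resolve_right h.2 ▸ hm] at k'
  have o := uB_ok b ha hJ h1 hρ re false
  obtain ⟨x, hx⟩ := adm_of_md o.B o.G k'
  exact exists_std o hx fun _ => hβ

end job

/-- **HW** -/
theorem hwStmt (κ lam : Type) [Fintype κ] [Fintype lam] [DecidableEq lam] : Hd82.HwStmt κ lam := by
  intro y ok
  classical
  have := y.M.cpt
  have := y.M.con
  obtain ⟨C⟩ := Cyl58.caps _ _ _ y.M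
  obtain ⟨_, f, hf⟩ := Met55.exists_frame (I := y.X.I) (M := y.X.M)
  obtain ⟨W, -, hW⟩ := Met55.exw Ms48.ms1 _ _ _ y.M C (G75.cstB f hf) ok.sp
  obtain ⟨Λ, hΛ⟩ := Line51.exl _ _ _ _ y.M W y.N (G75.cstL 0 Dr59.Sm.zero Dr59.Dg.zero) ok.spl
  have as : y.M.sys.Cmp y.a y.s := ((y.M.sys.w y.h).dj.mono ok.hs.2 ok.rev.1).symm
  let d : y.M.Cl := ⟨{y.s}, pairwise_singleton _ _⟩
  let c : y.M.Cl := ⟨{y.a, y.s}, pairwise_pair.2 fun _ => ⟨as, as.symm⟩⟩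
  have hd : ∀ x ∈ d.1, y.M.pin x := fun _ h => h ▸ ok.pin.2.2.1
  have ha : y.a ∈ cylW c := ⟨.inl rfl, ok.pin.1⟩
  have h1 : cylW c ⊆ {y.a} := fun x h => h.1.resolve_right fun k => h.2 (hd x k)
  obtain ⟨π, hπ, hi⟩ := (Sys.existsUnique_inn d.2 (fun k => ha.2 (hd _ k)) fun _ h => h ▸ as).exists
  obtain ⟨ρ, k1, k2, k3, -⟩ := (Hp13.Cmb.cmb _ _ y.M.sys c.1 d.1 π c.2 (subset_insert _ _) hπ).2
    y.a ⟨ha.1, hi⟩
  let b := tB (xg0 Empty y.N) Λ.nm c c 0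
  have st := fun e β => std1 (β := β) b ha (tJ_ok _ _ _ _) h1 W.nm_nrm Λ.nm_nrm ha.1 rfl hd (k1 e).1
    (k1 e).2.1
  refine ⟨⟨W.nm, _, Λ.nm, _, c, c, ρ, fun e => (xg0 Empty y.N).K _ c c _ _ _ (act b (⟨_, ha⟩, e))⟩,
    ⟨⟨hW.off, hW.band⟩, ⟨hΛ.off, hΛ.band⟩, W.nm_nrm, Λ.nm_nrm, rfl, ha.1,
      fun e => ⟨(k1 e).1, (k1 e).2.1⟩, fun e => (xg0 Empty y.N).isNk _ c c _ _ _ (act b (⟨_, ha⟩, e))⟩,
    fun N hN => ?_, le_rfl, fun N β hβ => ?_, fun β hβ => ?_⟩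
  · let Nf := update (β := fun x => ND (y.M.bn x).Y.M (lam ⊕ lam))
      (fun x => nd0 (y.M.bn x).Y.I _ _) y.a N
    have e : Nf y.a = N := update_self ..
    let S : XG Empty y.N := ⟨fun x => ⟨_, y.N.cy x, Nf x, 0⟩, fun _ => .refl _ _ _,
      fun x => ⟨y.N.cy_ok x, by
        by_cases k : x = y.a
        · subst k; exact e ▸ hN
        · simp only [Nf, update_of_ne k]; exact nd0_ok _⟩, fun _ _ => Cht98.cy_iso_refl _⟩
    rw [← e]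
    exact clo1 (tB S Λ.nm c c 0) ha (tJ_ok _ _ _ _) h1 W.nm_nrm Λ.nm_nrm ha.1 rfl hd hπ hi k1 k2 k3
  · obtain ⟨x, l, l'⟩ := st false β hβ
    exact ⟨x, l, fun _ => let ⟨w, ζ, s, l1, l2, l3⟩ := l' (); ⟨w, ζ, s, l1, l2, l3⟩⟩
  · obtain ⟨x, l, l'⟩ := st true β hβ
    exact ⟨x, fun _ => ⟨l, fun _ => let ⟨w, ζ, s, l1, l2, l3⟩ := l' (); ⟨w, ζ, s, l1, l2, l3⟩⟩⟩

end Crest.Agent.X212.Hd28
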