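import Crest.Agent.X212.Ms48.One
import Crest.Agent.X212.Pj41.Can
import Crest.Agent.X212.Pj41.Cm
import Crest.Agent.X212.Spn45.Conn
import Crest.Agent.X212.Cyl58.Cps

/-!
# Row 212, HD (helper28): modules exist on compact four-manifolds
-/

set_option autoImplicit false
set_option linter.unusedSectionVars false
noncomputable section
open Set Function Filter Topology Module
open scoped ContDiff Manifold

namespace Crest.Agent.X212.Hd28
open An Pj41 Std94 Ms48
open TopologicalSpace (Opens)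

/-- a functional with kernel the line of angle `θ` -/
def lL (θ : ℝ) : ℝ × ℝ →L[ℝ] ℝ :=
  (-Real.sin θ) • ContinuousLinearMap.fst ℝ ℝ ℝ + Real.cos θ • ContinuousLinearMap.snd ℝ ℝ ℝ

/-- the projector with this kernel -/
def lQ (θ : ℝ) : ℝ × ℝ →L[ℝ] ℝ × ℝ :=
  ContinuousLinearMap.smulRightL ℝ _ _ (lL θ) (-Real.sin θ, Real.cos θ)

theorem lQ_apply (θ : ℝ) (v : ℝ × ℝ) :
    lQ θ v = (-Real.sin θ * v.1 + Real.cos θ * v.2) • (-Real.sin θ, Real.cos θ) := rfl

theorem lQ_n (θ : ℝ) : lQ θ (-Real.sin θ, Real.cos θ) = (-Real.sin θ, Real.cos θ) := by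
  rw [lQ_apply, show -Real.sin θ * (-Real.sin θ, Real.cos θ).1 + Real.cos θ *
    (-Real.sin θ, Real.cos θ).2 = 1 by nlinarith [Real.sin_sq_add_cos_sq θ], one_smul]

theorem lQ_sm : ContDiff ℝ ∞ lQ :=
  (contDiff_const.clm_apply (show ContDiff ℝ ∞ lL by unfold lL; fun_prop)).clm_apply (by fun_prop)

theorem exists_ang (v : ℝ × ℝ) : ∃ t ∈ Ioo (0 : ℝ) 1, lQ (4 * Real.pi * t - 2 * Real.pi) v = 0 := by
  let z : ℂ := ⟨v.1, v.2⟩
  have p := Real.pi_pos
  refine ⟨(z.arg + 2 * Real.pi) / (4 * Real.pi), ⟨div_pos (by linarith [z.neg_pi_lt_arg]) (by linarith),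
    (div_lt_one (by linarith)).2 (by linarith [z.arg_le_pi])⟩, ?_⟩
  have h1 : ‖z‖ * Real.cos z.arg = v.1 := z.norm_mul_cos_arg
  have h2 : ‖z‖ * Real.sin z.arg = v.2 := z.norm_mul_sin_arg
  rw [mul_div_cancel₀ _ (by positivity), add_sub_cancel_right, lQ_apply,
    show -Real.sin z.arg * v.1 + Real.cos z.arg * v.2 = 0 by rw [← h1, ← h2]; ring, zero_smul]

theorem rank_prod {W : Type} [NormedAddCommGroup W] [NormedSpace ℝ W] [FiniteDimensional ℝ W]
    (P : W →L[ℝ] W) (θ : ℝ) : finrank ℝ (LinearMap.range (P : W →ₗ[ℝ] W)) <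
      finrank ℝ (LinearMap.range (P.prodMap (lQ θ) : W × ℝ × ℝ →ₗ[ℝ] W × ℝ × ℝ)) := by
  rw [← LinearMap.finrank_range_of_inj (f := LinearMap.inl ℝ W (ℝ × ℝ) ∘ₗ
    (LinearMap.range (P : W →ₗ[ℝ] W)).subtype) (LinearMap.inl_injective.comp Subtype.val_injective)]
  refine Submodule.finrank_lt_finrank_of_lt (lt_of_le_of_ne ?_ fun e => ?_)
  · rintro _ ⟨⟨_, w, rfl⟩, rfl⟩
    exact ⟨(w, 0), by simp⟩
  · obtain ⟨w, hw⟩ := e.ge ⟨(0, -Real.sin θ, Real.cos θ), rfl⟩
    have h := (congrArg Prod.snd hw).trans (lQ_n θ)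
    have h1 : 0 = -Real.sin θ := congrArg Prod.fst h
    have h2 : 0 = Real.cos θ := congrArg Prod.snd h
    nlinarith [Real.sin_sq_add_cos_sq θ]

variable {E : Type} [NormedAddCommGroup E] [NormedSpace ℝ E] [FiniteDimensional ℝ E]
  [MeasurableSpace E] [BorelSpace E]
  {HM : Type} [TopologicalSpace HM] {I : ModelWithCorners ℝ E HM} [I.Boundaryless]
  {M : Type} [TopologicalSpace M] [ChartedSpace HM M] [IsManifold I ∞ M] [T2Space M]
  [SecondCountableTopology M] [MeasurableSpace M] {ι : Type} [Fintype ι] {lam : Type} [Fintype lam]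
  {B : Base M ι lam} {m m' : Md M ι lam} {O O' : Set M}

theorem md2 (hO : IsOpen O) (hO' : IsOpen O') (hc : ∀ x, x ∈ O ∨ x ∈ O') (hm : OKOn I B m O)
    (hm' : OKOn I B m' O') {u : M → CL m.V m'.V} (h : Iso0 I m m' (O ∩ O') u) :
    ∃ n : Md M ι lam, n.OK I B := by
  have := Orx52.sigmaCompact I M
  let mi : Bool → Md M ι lam := fun b => Bool.rec m' m b
  let v : ∀ i j, M → CL (mi j).V (mi i).V := fun i j => match i, j with
    | true, true => m.p
    | false, false => m'.p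
    | false, true => u
    | true, false => fun x => ad (u x)
  obtain ⟨n, -, k, -⟩ := md_glue (I := I) (B := B) (Oi := fun b => Bool.rec O' O b) (mi := mi)
    (u := v) ⟨fun i => by cases i; exacts [hO', hO],
      fun x => (hc x).elim (fun h => ⟨true, h⟩) fun h => ⟨false, h⟩,
      fun i => by cases i; exacts [hm', hm], fun i j => by
        cases i <;> cases j
        · exact (Iso0.refl hm').mono inter_subset_left
        · exact h.mono fun _ hx => ⟨hx.2, hx.1⟩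
        · exact h.symm (hm.mono inter_subset_left) (hm'.mono inter_subset_right)
        · exact (Iso0.refl hm).mono inter_subset_left, fun i j l x hi hj hl => by
        cases i <;> cases j <;> cases l
        exacts [hm'.pidem x hi, (h.iso x ⟨hl, hi⟩).left, (h.iso x ⟨hj, hi⟩).tgt,
          (h.iso x ⟨hj, hi⟩).idem, (h.iso x ⟨hi, hj⟩).symm.idem, (h.iso x ⟨hi, hj⟩).src,
          (h.iso x ⟨hi, hl⟩).symm.left, hm.pidem x hi]⟩
  exact ⟨n, k⟩

variable (h4 : finrank ℝ E = 4) (hB : B.OK I)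
include h4 hB

/-- two modules over a cover are isomorphic near a separating level -/
theorem md_two0 (hO : IsOpen O) (hO' : IsOpen O') (hc : ∀ x, x ∈ O ∨ x ∈ O') (H : OKOn I B m O)
    (H' : OKOn I B m' O') : ∃ n : Md M ι lam, n.OK I B := by
  have := Orx52.sigmaCompact I M
  obtain ⟨f, f0, f1, -⟩ := exists_contMDiffMap_zero_one_of_isClosed I (n := ⊤) hO'.isClosed_compl
    hO.isClosed_compl (disjoint_left.2 fun x h1 h2 => (hc x).elim h2 h1)
  have s : ∀ x ∈ O ∩ O', FSm I (Pix m m') x := fun x hx =>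
    Kl.Pi (K := smAt I x) ((smAt I x).const _) (fun a => H.sρ a x hx.1) (H.sj x hx.1)
      ((smAt I x).const _) (fun a => H'.sρ a x hx.2) (H'.sj x hx.2)
  have i := fun x (hx : x ∈ O ∩ O') => itx_Pix hB (pmx_on H hx.1) (pmx_on H' hx.2)
  let U : Opens M := ⟨O ∩ O', hO.inter hO'⟩
  obtain ⟨w, hw⟩ := exists_nv (I := I) (X := U)
    (P := fun x => (Pix m m' x.1).prodMap (lQ (4 * Real.pi * f x.1 - 2 * Real.pi)))
    (fun x => ContMDiffAt.clm_prodMap (contMDiffAt_subtype_iff.2 (s x x.2))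
      ((lQ_sm.comp (g := lQ) (f := fun t : ℝ => 4 * Real.pi * t - 2 * Real.pi)
        (by fun_prop)).contDiffAt.comp_contMDiffAt (contMDiffAt_subtype_iff.2 (f.contMDiff x))))
    (fun x w => Prod.ext (Pix_of_itx hB (pmx_on H x.2.1) (pmx_on H' x.2.2) (i x x.2 _))
      (by simp only [ContinuousLinearMap.coe_prodMap', Prod.map_snd]
          conv_lhs => rw [lQ_apply _ w.2, map_smul, lQ_n, ← lQ_apply]))
    fun x => (h4.trans_le (rank_Pix hB (pmx_on H x.2.1) (pmx_on H' x.2.2))).trans_lt (rank_prod _ _)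
  obtain ⟨t, ⟨t0, t1⟩, ht⟩ := exists_ang w.2
  let V := {x | x ∈ O ∩ O' ∧ Pix m m' x w.1 ≠ 0}
  have sa : ∀ x ∈ O ∩ O', FSm I (fun x => Pix m m' x w.1) x := fun x hx =>
    Kl.appc (K := smAt I x) (s x hx) w.1
  have hV : IsOpen V := isOpen_iff_mem_nhds.2 fun x hx => inter_mem ((hO.inter hO').mem_nhds hx.1)
    ((ContMDiffAt.continuousAt (sa x hx.1)).eventually_ne hx.2)
  have a0 : ∀ x, f x ≠ 1 → x ∈ O := fun x h => by_contra fun k => h (f1 k)
  have a1 : ∀ x, f x ≠ 0 → x ∈ O' := fun x h => by_contra fun k => h (f0 k)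
  have cf := f.contMDiff.continuous
  have sub : ({x | f x < t} ∪ V) ∩ ({x | t < f x} ∪ V) ⊆ V := fun x hx =>
    hx.1.elim (fun h => hx.2.elim (fun h' => (lt_asymm (show f x < t from h) h').elim) id) id
  have b0 : {x | f x < t} ∪ V ⊆ O := fun x hx => hx.elim (fun h => a0 x (h.trans t1).ne) fun h => h.1.1
  have b1 : {x | t < f x} ∪ V ⊆ O' := fun x hx => hx.elim (fun h => a1 x (t0.trans h).ne') fun h => h.1.2
  refine md2 ((isOpen_lt cf continuous_const).union hV) ((isOpen_lt continuous_const cf).union hV)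
    (fun x => ?_) (H.mono b0) (H'.mono b1) (iso0_of_nv hB (H.mono fun x hx => (sub hx).1.1)
      (H'.mono fun x hx => (sub hx).1.2) (fun x hx => sa x (sub hx).1) (fun x hx => i x (sub hx).1 _)
      fun x hx => (sub hx).2)
  rcases lt_trichotomy (f x) t with h | h | h
  · exact .inl (.inl h)
  · have k : x ∈ O ∩ O' := ⟨a0 x (h.trans_lt t1).ne, a1 x (h ▸ t0).ne'⟩
    exact .inl (.inr ⟨k, fun e => hw ⟨x, k⟩ (Prod.ext e (by
      simp only [ContinuousLinearMap.coe_prodMap', Prod.map_snd, h, ht, Prod.snd_zero]))⟩)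
  · exact .inr (.inl h)

omit h4 hB in
theorem okOn_congr {B' : Base M ι lam} (H : OKOn I B m O) (hP : ∀ x ∈ O, ∀ a b, B'.P a b x = B.P a b x)
    (hl : ∀ x ∈ O, B'.l x = B.l x) (hi : B'.il = B.il) : OKOn I B' m O :=
  { H with
    cl := fun x hx => by simp only [hP x hx]; exact H.cl x hx
    jil := fun x hx => hi ▸ H.jil x hx
    jl := fun x hx => hl x hx ▸ H.jl x hx
    jsq := fun x hx => hl x hx ▸ H.jsq x hx }

theorem md_two (hO : IsOpen O) (hO' : IsOpen O') (H : OKOn I B m O) (H' : OKOn I B m' O') :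
    ∃ n : Md M ι lam, OKOn I B n (O ∪ O') := by
  classical
  rcases (O ∪ O').eq_empty_or_nonempty with e | ⟨x₀, h₀⟩
  · exact ⟨m, H.mono (e.le.trans (empty_subset _))⟩
  let U : Opens M := ⟨O ∪ O', hO.union hO'⟩
  have v : ContMDiff I I ∞ (Subtype.val : U → M) := contMDiff_subtype_val
  obtain ⟨n, hn⟩ := md_two0 (M := U) h4 (cmB_ok v hB) (hO.preimage v.continuous)
    (hO'.preimage v.continuous) (fun x => x.2) (cmM_okOn (fun x _ => v x) (mapsTo_preimage _ _) H)
    (cmM_okOn (fun x _ => v x) (mapsTo_preimage _ _) H')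
  let r : M → U := fun x => if h : x ∈ O ∪ O' then ⟨x, h⟩ else ⟨x₀, h₀⟩
  have e : ∀ x ∈ O ∪ O', (r x).1 = x := fun x hx => by simp only [r, dif_pos hx]
  refine ⟨cmM r n, okOn_congr (cmM_okOn (fun x hx => ?_) (mapsTo_univ _ _) (OK.on hn univ))
    (fun x hx a b => by simp only [e x hx]) (fun x hx => by simp only [e x hx]) rfl⟩
  exact (ContMDiffAt.subtypeVal_comp_iff U r x).1 (contMDiffAt_id.congr_of_eventuallyEq
    (eventually_of_mem (U.2.mem_nhds hx) e))

/-- **EXM** -/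
theorem exists_md [CompactSpace M] [Nonempty M] : ∃ m : Md M ι lam, m.OK I B := by
  obtain ⟨m₀, O₀, -, -, k₀⟩ := exists_md_near hB (Classical.arbitrary M)
  obtain ⟨O, m, -, h1, h2⟩ := isCompact_univ.induction_on
    (p := fun K => ∃ (O : Set M) (m : Md M ι lam), IsOpen O ∧ K ⊆ O ∧ OKOn I B m O)
    ⟨∅, m₀, isOpen_empty, subset_rfl, k₀.mono (empty_subset _)⟩
    (fun _ _ h ⟨O, m, a, b, c⟩ => ⟨O, m, a, h.trans b, c⟩)
    (fun _ _ ⟨O, m, a, b, c⟩ ⟨O', m', a', b', c'⟩ => let ⟨n, k⟩ := md_two h4 hB a a' c c'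
      ⟨_, n, a.union a', union_subset_union b b', k⟩)
    fun x _ => let ⟨m, O, a, b, c⟩ := exists_md_near hB x
      ⟨O, mem_nhdsWithin_of_mem_nhds (a.mem_nhds b), O, m, a, subset_rfl, c⟩
  exact ⟨m, okOn_univ.1 (h2.mono h1)⟩

omit h4 in
theorem adm_of_md {G : Geo I M ι lam} (hG : G.OK B) (H : m.OK I B) :
    ∃ c : Cfg M ι lam 0, c.Adm B G :=
  let ⟨W, hW⟩ := Spn45.exists_conn hB hG H
  ⟨⟨m, W, 0, 0⟩, H, hW, contMDiff_const, fun _ => map_zero _, .inl rfl⟩

/-- **EXM**, configurations -/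
theorem exm [CompactSpace M] [Nonempty M] {G : Geo I M ι lam} (hG : G.OK B) :
    ∃ c : Cfg M ι lam 0, c.Adm B G :=
  let ⟨_, H⟩ := exists_md h4 hB; adm_of_md hB hG H

end Crest.Agent.X212.Hd28
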