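import Crest.Agent.X212.Hd82.Defs
import Crest.Agent.X212.Hd28.Exm
import Crest.Agent.X212.One97.Ext
import Crest.Agent.X212.Bki64.Cls
import Crest.Agent.X212.Glc56.Cyl

/-!
# Row 212, HD (helper28): the leaves MD and EXS
-/

set_option autoImplicit false
set_option linter.unusedSectionVars false
noncomputable section
open Set Function Filter Topology
open scoped ContDiff Manifold

namespace Crest.Agent.X212.Hd28
open An M Nd18 Pj41 Cyf70
open Tmp64 (AdmOn admOn_univ)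

variable {κ lam : Type} [Fintype κ] [Fintype lam] {Z : Mf 4}

/-- **MD** -/
theorem mdStmt (ι lam : Type) [Fintype ι] [Fintype lam] : Hd82.MdStmt ι lam := fun Z _ B hB => by
  rcases isEmpty_or_nonempty Z.M with h | h
  · refine ⟨⟨0, 0, 0, 0, 0⟩, okOn_univ.1 ?_⟩
    rw [univ_eq_empty_iff.2 h]
    refine ⟨Subsingleton.elim _ _, fun _ _ => by simp, ?_, ?_, ?_, ?_, ?_, ?_, ?_, ?_, ?_, ?_, ?_, ?_,
      ?_, ?_, ?_, ?_, ?_⟩ <;> simp
  · exact exists_md Z.dim hB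

section en
variable {B : Base Z.M (Option κ) lam} {G : Geo Z.I Z.M (Option κ) lam} {e : En B G}
  {c : C0 Z κ lam} {β : e.X.C} {s : ℝ}

theorem ht_mono {t : ℝ} (h : s ≤ t) : e.ht t ⊆ e.ht s := fun _ k => h.trans_lt k

theorem ht_mem (s : ℝ) : e.ht s ∈ (bif e.out then atTop else atBot : Filter ℝ) := by
  unfold En.ht
  cases e.out
  · exact mem_of_superset (Iio_mem_atBot (-s)) fun t (h : t < -s) => by simp; linarith
  · simpa using Ioi_mem_atTop s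

theorem ht_sub {S : Set ℝ} (h : S ∈ (bif e.out then atTop else atBot : Filter ℝ)) :
    ∃ s, e.ht s ⊆ S := by
  unfold En.ht
  cases k : e.out <;> rw [k] at h
  · obtain ⟨T, hT⟩ := mem_atBot_sets.1 h
    exact ⟨-T, fun t ht => hT t (by simp at ht; exact ht.le)⟩
  · obtain ⟨T, hT⟩ := mem_atTop_sets.1 h
    exact ⟨T, fun t ht => hT t (by simp at ht; exact ht.le)⟩

/-- `Nk.Std` gives `En.Sd` -/
theorem sd_of_std (hX : e.X.D.OK) (hc : c.Adm B G) (hβ : e.X.D.Adm β) {ζ : Circle}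
    (h : e.K.Std c β ζ (bif e.out then atTop else atBot)) : e.Sd c β := by
  obtain ⟨u, S, h1, h2, h3⟩ := h
  obtain ⟨s, hs⟩ := ht_sub h1
  have o : IsOpen (univ ×ˢ S : Set (e.X.Y.M × ℝ)) := isOpen_univ.prod h3.op
  have A : AdmOn (e.K.pb c) e.X.D.B e.X.D.G (univ ×ˢ S) :=
    (One97.admOn_pb e.K isOpen_univ (admOn_univ.2 hc)).mono fun _ hx =>
      ⟨e.K.mem_src.2 (h2 hx.2), trivial⟩
  have k := OK.on hβ.adm.ok
  have i := Iso0.of_mEq o h3.m A.ok (k _)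
  have m : (univ ×ˢ e.ht s : Set (e.X.Y.M × ℝ)) ⊆ univ ×ˢ S := prod_mono_right hs
  refine ⟨u, ζ, s, hβ, hs.trans h2, (i.mono m).mEq (A.ok.mono m) (k _),
    (par0_iff ((IsConn.on hβ.adm.conn _).proj' hX.B)).1 fun x hx a => ?_,
    fun x hx => (sub_eq_zero.1 (norm_le_zero_iff.1 (h3.P [] le_rfl x (m hx)))).symm,
    Subsingleton.elim _ _⟩
  exact (Bki64.dA_u (c := e.K.pb c) (c' := cy β) i o A (m hx) a).symm.trans ((congrArg (· ∘L u x)
    (norm_le_zero_iff.1 (h3.A a [] le_rfl x (m hx)))).trans (ContinuousLinearMap.zero_comp _))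

/-- `En.Sd` depends on the end only -/
theorem sd_congr (h : e.Sd c β) {W : c.m.Cn} {Φ : Z.M → c.m.V}
    (k : ∀ x ∈ e.U s, (∀ a, W a x = c.W a x) ∧ Φ x = c.Φ x) : e.Sd ⟨c.m, W, Φ, c.z⟩ β := by
  obtain ⟨w, ζ, t, h1, h2, h3⟩ := h
  have m : (univ ×ˢ e.ht (max s t) : Set (e.X.Y.M × ℝ)) ⊆ univ ×ˢ e.ht t :=
    prod_mono_right (ht_mono (le_max_right _ _))
  have k' := fun x (hx : x ∈ univ ×ˢ e.ht (max s t)) =>
    k (e.K.ψ x) ⟨x, ⟨trivial, ht_mono (le_max_left _ _) hx.2⟩, rfl⟩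
  refine ⟨w, ζ, max s t, h1, (ht_mono (le_max_right _ _)).trans h2,
    ⟨h3.m.su.mono m, fun x hx => h3.m.uu x (m hx), fun x hx => h3.m.uu' x (m hx),
      fun x hx => h3.m.J x (m hx), fun x hx => h3.m.ρ x (m hx), fun x hx => h3.m.j x (m hx)⟩,
    fun x hx a => ?_, fun x hx => ?_, h3.z⟩
  · have := h3.W x (m hx) a
    rw [show (e.K.pb c).W a x = W a (e.K.ψ x) from ((k' x hx).1 a).symm] at this
    exact this
  · have := h3.Φ x (m hx)
    rw [show (e.K.pb c).Φ x = Φ (e.K.ψ x) from (k' x hx).2.symm] at this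
    exact this

/-- one end -/
theorem exists_sd (hX : e.X.D.OK) (hB : B.OK Z.I) (hG : G.OK B) (hc : c.Adm B G)
    (hβ : e.X.D.Adm β) (hs : e.ht s ⊆ e.K.J) : ∃ W Φ, (⟨c.m, W, Φ, c.z⟩ : C0 Z κ lam).Adm B G ∧
      e.Sd ⟨c.m, W, Φ, c.z⟩ β ∧ ∀ x ∉ e.U s, (∀ a, W a x = c.W a x) ∧ Φ x = c.Φ x := by
  have H := fun t => One97.ext e.X.D hX e.X.Y.dim Z.E Z.H Z.I Z.M B G e.K hB hG 0 c β 1 t hc hβ
  have U : ∀ x, e.K.tm x ∈ e.ht s → x ∈ e.U s := fun x hx =>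
    have ht : x ∈ e.K.ψ.target := e.K.tgt ▸ hs hx
    ⟨e.K.ψ.symm x, ⟨trivial, (e.K.snd_symm ht).symm ▸ hx⟩, e.K.ψ.right_inv ht⟩
  have S := fun W Φ (k : (⟨c.m, W, Φ, c.z⟩ : C0 Z κ lam).Adm B G) => sd_of_std (ζ := 1) hX k hβ
  obtain ⟨X, K, _ | _⟩ := e
  · have hp : K.p = none := Option.eq_none_iff_forall_not_mem.2 fun a ha =>
      ((hs (show min a (-s - 1) ∈ _ by
        simp [En.ht]; linarith [min_le_right a (-s - 1)])).1 a ha).not_ge (min_le_left _ _)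
    obtain ⟨W, Φ, k1, k2, k3⟩ := (H (-s - 1) (hs (by simp [En.ht]))).2 hp
    exact ⟨W, Φ, k1, S W Φ k1 k2, fun x hx => k3 x fun k => hx (U x (by
      simp [En.ht] at k ⊢; linarith))⟩
  · have hq : K.q = none := Option.eq_none_iff_forall_not_mem.2 fun a ha =>
      ((hs (show max a (s + 1) ∈ _ by
        simp [En.ht])).2 a ha).not_ge (le_max_left _ _)
    obtain ⟨W, Φ, k1, k2, k3⟩ := (H (s + 1) (hs (by simp [En.ht]))).1 hq
    exact ⟨W, Φ, k1, S W Φ k1 k2, fun x hx => k3 x fun k => hx (U x (by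
      simp [En.ht] at k ⊢; linarith))⟩

end en

/-- all ends -/
theorem exists_std {b : BG κ lam Z} {O : Set Z.M} (hb : b.OK O) {c : C0 Z κ lam}
    (hc : c.Adm b.B b.G) {β : ∀ a, (b.E a).X.C} (hβ : ∀ a, (b.E a).X.D.Adm (β a)) :
    ∃ c', b.Std c' β := by
  classical
  obtain ⟨s, hs⟩ := hb.en
  suffices ∀ T : Finset b.A, ∃ c' : C0 Z κ lam, c'.Adm b.B b.G ∧ ∀ a ∈ T, (b.E a).Sd c' (β a) from
    let ⟨c', k1, k2⟩ := this Finset.univ; ⟨c', k1, fun a => k2 a (Finset.mem_univ a)⟩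
  refine Finset.induction ⟨c, hc, by simp⟩ fun a T ha ⟨c', k1, k2⟩ => ?_
  obtain ⟨W, Φ, l1, l2, l3⟩ := exists_sd (hb.X a).ok hb.B hb.G k1 (hβ a) (hs a).1
  refine ⟨_, l1, fun a' h => ?_⟩
  rcases Finset.mem_insert.1 h with rfl | h'
  · exact l2
  · exact sd_congr (k2 a' h') fun x hx => l3 x
      (disjoint_right.1 ((hs a).2.2 a' fun e => ha (e ▸ h')) hx)

/-- **EXS** -/
theorem exsStmt (κ lam : Type) [Fintype κ] [Fintype lam] : Hd82.ExsStmt κ lam :=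
  fun _ _ _ hb ⟨_, hm⟩ hβ => let ⟨_, hc⟩ := adm_of_md hb.B hb.G hm; exists_std hb hc hβ

end Crest.Agent.X212.Hd28
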